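import Vale.Agent.P032X.Cert.X1a.M
import Vale.Agent.P032X.Cert.X1a.C000
import Vale.Agent.P032X.Cert.X1a.C001
import Vale.Agent.P032X.Cert.X1a.C002
import Vale.Agent.P032X.Cert.X1a.C003

namespace Vale.Agent.P032X.Cert.X1a

open Vale.Agent.P032.H820.K Vale.Agent.P032.H357.MK Vale.Agent.P032.H286.E Vale.Agent.P032.H61 Vale.Agent.P032.H61.TF Vale.Agent.P032.BlkE Vale.Agent.P032.BlkS Vale.Agent.P032.H357

def L : List (List ℕ) := C000.L ++ (C001.L ++ (C002.L ++ (C003.L)))

theorem all : ∀ P ∈ L, Crt 73 73 TBm TCm (EZ 31) P := List.forall_mem_append.2 ⟨C000.all, List.forall_mem_append.2 ⟨C001.all, List.forall_mem_append.2 ⟨C002.all, C003.all⟩⟩⟩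

theorem d1 : D1 tr := d1_of (show chT 73 73 TCm tr L = true by decide +kernel) all

/-- **no unit pair of five-coloured points with different colours** -/
theorem x1a : Dead (kap TF.TC) (CW (fun _ => True) 5 5 73 TF.TC) [ps (En 4 1 0 0 5)] :=
  x1_a d1 (xs := []) (fun x hx => absurd hx List.not_mem_nil) (tbm_eq ▸ q)

end Vale.Agent.P032X.Cert.X1a
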